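import Vale.Agent.P225.Series.Defs
import Vale.Agent.P225.Metric.CapProfile

/-!
P225, module B: the parametrised metric of the end. Logarithmic time `t = log r`; a stage runs in
its own slow time `s = ε (t - start)`: travel to the product point on `[0, 1]`, one bump per letter,
wait, travel back, dwell at the normal point.
-/

noncomputable section

namespace Vale.Agent.P225

open Matrix Real
open scoped ContDiff

/-- Matrices on the six link directions. -/
abbrev LinkMat := Matrix (Bool × Fin 3) (Bool × Fin 3) ℝ

/-- A stage: gauge, letters of the control word, wait and final dwell (both in slow units). -/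
structure StagePlan where
  gauge : Fin 3
  len : ℕ
  letter : Fin len → Fin 3 × Fin 3
  wait : ℕ
  dwell : ℕ

/-- Slow duration of a stage. -/
def StagePlan.dur (σ : StagePlan) : ℝ := (σ.len : ℝ) + σ.wait + σ.dwell + 3

/-- A smooth bump supported in `[0, 1]` with integral `1`. -/
def bump (s : ℝ) : ℝ := deriv (fun x => smoothTransition (2 * x - 1 / 2)) s

/-- Position on the line: `1` at the normal point, `0` at the product point of the gauge. -/
def stageTheta (σ : StagePlan) (s : ℝ) : ℝ :=
  1 - smoothTransition (2 * s - 1 / 2) +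
    smoothTransition (2 * (s - (σ.len + σ.wait + 1)) - 1 / 2)

/-- The symmetric control direction of a letter. -/
def ctrlDir (ik : Fin 3 × Fin 3) : LinkMat := fun a b =>
  if (a = (false, ik.1) ∧ b = (true, ik.2)) ∨ (b = (false, ik.1) ∧ a = (true, ik.2)) then 1 else 0

/-- The control of a stage with coefficients `p`. -/
def stageCtrl (σ : StagePlan) (p : ℕ → ℝ) (s : ℝ) : LinkMat :=
  ∑ k : Fin σ.len, (p k * bump (s - (k + 1))) • ctrlDir (σ.letter k)

/-- Parameters of the line point of gauge `G` at scale `P`. -/
def linePar (P θ : ℝ) (G : Fin 3) : Fin 3 → ℝ :=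
  fun k => Real.sqrt 3 * P / Real.sqrt (1 + 2 * θ) * (if k = G then θ else 1)

/-- Inverse Gram matrix of a stage, with the determinant of the line. -/
def stageQ (σ : StagePlan) (ε P : ℝ) (p : ℕ → ℝ) (s : ℝ) : LinkMat :=
  let base := SU2.adQ σ.gauge (linePar P (stageTheta σ s) σ.gauge)
  let Q := base + (Real.sqrt 3 * P * ε) • stageCtrl σ p s
  ((base.det / Q.det) ^ (1 / 6 : ℝ)) • Q

/-- Speed of cluster `j`. -/
def speed (j : ℕ) : ℝ := ((j : ℝ) ^ 4)⁻¹

/-- Slow duration of a list of stages. -/
def planDur (l : List StagePlan) : ℝ := (l.map StagePlan.dur).sum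

/-- Everything fixed before the parameters. -/
structure PathData where
  period : ℕ
  plan : ℕ → List StagePlan
  j₀ : ℕ
  box : ℝ
  /-- The scale, as a function of time. -/
  scale : ℝ → ℝ
  /-- The path before the first cluster, in gauge `0`, by its Ad-invariant parameters. -/
  pre : ℝ → Fin 3 → ℝ

variable (d : PathData)

/-- Start of cluster `j₀ + i`. -/
def clusterStart : ℕ → ℝ
  | 0 => (d.j₀ : ℝ) ^ 6
  | i + 1 => clusterStart i + planDur (d.plan (d.j₀ + i)) / speed (d.j₀ + i) + ((d.j₀ + i : ℕ) : ℝ) ^ 5

/-- Start of stage `l` of cluster `j₀ + i`. -/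
def stageStart (i l : ℕ) : ℝ :=
  clusterStart d i + planDur ((d.plan (d.j₀ + i)).take l) / speed (d.j₀ + i)

/-- `t` lies in stage `l` of cluster `j₀ + i`. -/
def InStage (t : ℝ) (il : ℕ × ℕ) : Prop :=
  il.2 < (d.plan (d.j₀ + il.1)).length ∧ stageStart d il.1 il.2 ≤ t ∧
    t < stageStart d il.1 (il.2 + 1)

/-- A coefficient for each cluster, stage and letter. -/
abbrev Param := ℕ → ℕ → ℕ → ℝ

/-- The parameter box. -/
def InBox (p : Param) : Prop := ∀ i l k, |p i l k| ≤ d.box

open Classical in
/-- The gauge in use at time `t`. -/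
def pathGauge (t : ℝ) : Fin 3 :=
  if h : ∃ il, InStage d t il then
    ((d.plan (d.j₀ + h.choose.1))[h.choose.2]'(h.choose_spec.1)).gauge
  else 0

open Classical in
/-- The inverse Gram matrix at time `t`, in the gauge in use. -/
def pathQ (p : Param) (t : ℝ) : LinkMat :=
  if h : ∃ il, InStage d t il then
    stageQ ((d.plan (d.j₀ + h.choose.1))[h.choose.2]'(h.choose_spec.1))
      (speed (d.j₀ + h.choose.1)) (d.scale t) (p h.choose.1 h.choose.2)
      (speed (d.j₀ + h.choose.1) * (t - stageStart d h.choose.1 h.choose.2))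
  else if (d.j₀ : ℝ) ^ 6 ≤ t then SU2.adQ 0 fun _ => d.scale t
  else SU2.adQ 0 (d.pre t)

/-- Back to a matrix on `Fin 6`. -/
def toLink (Q : LinkMat) : Matrix (Fin 6) (Fin 6) ℝ := fun i j => Q (lkDir i) (lkDir j)

/-- The Gram matrix of the link at radius `r`. -/
def pathM (p : Param) (r : ℝ) : Matrix (Fin 6) (Fin 6) ℝ :=
  r ^ 2 • (toLink (pathQ d p (Real.log r)))⁻¹

/-- The metric, given the radius below which it is the flat core `ℝ⁴ × S³` with `β`. -/
def pathMetric (p : Param) (r₂ β : ℝ) : MetricField := fun v =>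
  if rad v < r₂ then coreMetric β v else gaugeMetric (pathGauge d (Real.log (rad v))) (pathM d p) v

/-- Minus the link Laplacian at time `t`, on the blocks of the gauge in use. -/
def pathOp (p : Param) (t : ℝ) : ∀ q, BlkMat q := SU2.linkOp (pathQ d p t)

/-- Half the logarithmic derivative of the determinant of the link. -/
def pathNu (t : ℝ) : ℝ := 5 - 3 * deriv d.scale t / d.scale t

end Vale.Agent.P225
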