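import Vale.Agent.P225.Geom.Warped
import Vale.Agent.P225.Metric.LinkLine
import Vale.Agent.P225.Path.Metric.Deriv

/-!
P225, module B: Ricci curvature of `dr² + r² h(log r)` when `h` moves slowly while its volume
decreases, near a compact family of links with curvature above `5`.
-/

noncomputable section

namespace Vale.Agent.P225

open Matrix
open scoped ContDiff Matrix.Norms.Elementwise

namespace PathMetric

/-- The quadratic form of `Ric - 5 h` on the link. -/
def linkGap (h : Matrix (Fin 6) (Fin 6) ℝ) (w : Fin 6 → ℝ) : ℝ :=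
  ∑ i, ∑ j, (linkRicci h linkC i j - 5 * h i j) * w i * w j

theorem continuousOn_inv_entry (i j : Fin 6) :
    ContinuousOn (fun h : Matrix (Fin 6) (Fin 6) ℝ => h⁻¹ i j) {h | h.det ≠ 0} := by
  simp only [Matrix.inv_def, Matrix.smul_apply, Ring.inverse_eq_inv', smul_eq_mul]
  exact ((continuous_id.matrix_det).continuousOn.inv₀ fun h hh => hh).mul
    ((continuous_id.matrix_adjugate).matrix_elem i j).continuousOn

theorem continuousOn_linkGamma (i j l : Fin 6) :
    ContinuousOn (fun h => linkGamma h linkC i j l) {h | h.det ≠ 0} := by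
  unfold linkGamma
  refine continuousOn_const.mul (continuousOn_finsetSum _ fun e _ =>
    (continuousOn_inv_entry l e).mul (continuousOn_finsetSum _ fun k _ => ?_))
  exact ((continuousOn_const.mul (continuous_id.matrix_elem k e).continuousOn).sub
    (continuousOn_const.mul (continuous_id.matrix_elem k j).continuousOn)).sub
    (continuousOn_const.mul (continuous_id.matrix_elem k i).continuousOn)

theorem continuousOn_linkGap_entry (i j : Fin 6) :
    ContinuousOn (fun h => linkRicci h linkC i j - 5 * h i j) {h | h.det ≠ 0} := by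
  unfold linkRicci
  refine ContinuousOn.sub (continuousOn_finsetSum _ fun k _ => continuousOn_finsetSum _ fun d _ => ?_)
    (continuousOn_const.mul (continuous_id.matrix_elem i j).continuousOn)
  exact (((continuousOn_linkGamma _ _ _).mul (continuousOn_linkGamma _ _ _)).sub
    ((continuousOn_linkGamma _ _ _).mul (continuousOn_linkGamma _ _ _))).sub
    (continuousOn_const.mul (continuousOn_linkGamma _ _ _))

theorem abs_mul_le_sum_sq (w : Fin 6 → ℝ) (i j : Fin 6) : |w i * w j| ≤ ∑ k, w k ^ 2 := by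
  rw [abs_mul]
  have hk : ∀ k, w k ^ 2 ≤ ∑ l, w l ^ 2 := fun k =>
    Finset.single_le_sum (fun l _ => sq_nonneg (w l)) (Finset.mem_univ k)
  nlinarith [hk i, hk j, sq_abs (w i), sq_abs (w j), sq_nonneg (|w i| - |w j|)]

/-- An entrywise bound on a form. -/
theorem quad_bound {a : Fin 6 → Fin 6 → ℝ} {e : ℝ} (ha : ∀ i j, |a i j| ≤ e) (w : Fin 6 → ℝ) :
    |∑ i, ∑ j, a i j * w i * w j| ≤ 36 * e * ∑ k, w k ^ 2 := by
  refine (Finset.abs_sum_le_sum_abs _ _).trans ((Finset.sum_le_sum fun i _ =>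
    (Finset.abs_sum_le_sum_abs _ _).trans (Finset.sum_le_sum fun j _ =>
      show |a i j * w i * w j| ≤ e * ∑ k, w k ^ 2 from ?_)).trans (le_of_eq ?_))
  · rw [mul_assoc, abs_mul]
    exact mul_le_mul (ha i j) (abs_mul_le_sum_sq w i j) (abs_nonneg _)
      ((abs_nonneg _).trans (ha i j))
  · simp; ring

/-- An entrywise bound on a trace. -/
theorem abs_trace_le {A : Matrix (Fin 6) (Fin 6) ℝ} {e : ℝ} (hA : ∀ i, |A i i| ≤ e) :
    |A.trace| ≤ 6 * e :=
  (Finset.abs_sum_le_sum_abs _ _).trans ((Finset.sum_le_sum fun i _ => hA i).trans (by simp))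

/-- An entrywise bound on a product. -/
theorem abs_mul_entry {A B : Matrix (Fin 6) (Fin 6) ℝ} {a b : ℝ} (hA : ∀ i j, |A i j| ≤ a)
    (hB : ∀ i j, |B i j| ≤ b) (i j : Fin 6) : |(A * B) i j| ≤ 6 * (a * b) := by
  rw [Matrix.mul_apply]
  refine (Finset.abs_sum_le_sum_abs _ _).trans ((Finset.sum_le_sum (g := fun _ => a * b) fun k _ => ?_).trans (by simp))
  rw [abs_mul]
  exact mul_le_mul (hA i k) (hB k j) (abs_nonneg _) ((abs_nonneg _).trans (hA i k))

/-- The error of the link part. -/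
theorem link_error {h D E N A : Matrix (Fin 6) (Fin 6) ℝ} {C κ a φ : ℝ} (hC : 1 ≤ C) (hκ : 0 < κ)
    (k1 : κ ≤ 1) (ha0 : 0 ≤ a) (ha1 : a ≤ κ) (hD : ∀ i j, |D i j| ≤ a) (hE : ∀ i j, |E i j| ≤ κ)
    (hN : ∀ i j, |N i j| ≤ C) (hh : ∀ i j, |h i j| ≤ C) (htA : A.trace = -2 * φ) (hφ0 : 0 < φ)
    (hφκ : φ ≤ κ) (i j : Fin 6) :
    |-(5 / 2) * D i j - 1 / 2 * E i j + 1 / 2 * (D * N * D) i j - 1 / 2 * A.trace * h i j -
      1 / 4 * A.trace * D i j| ≤ 26 * C * κ := by
  have e1 := abs_mul_entry (abs_mul_entry hD hN) hD i j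
  have e1' : 6 * (6 * (a * C) * a) ≤ 36 * C * κ := by
    have h1 : a * a ≤ κ * 1 := mul_le_mul ha1 (ha1.trans k1) ha0 hκ.le
    calc 6 * (6 * (a * C) * a) = 36 * C * (a * a) := by ring
      _ ≤ 36 * C * (κ * 1) := by gcongr
      _ = _ := by ring
  have e2 : |A.trace * h i j| ≤ 2 * C * κ := by
    rw [htA, abs_mul, abs_mul, abs_of_pos hφ0, show |(-2 : ℝ)| = 2 by norm_num]
    calc 2 * φ * |h i j| ≤ 2 * κ * C := by gcongr; exact hh i j
      _ = _ := by ring
  have e3 : |A.trace * D i j| ≤ 2 * κ := by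
    rw [htA, abs_mul, abs_mul, abs_of_pos hφ0, show |(-2 : ℝ)| = 2 by norm_num]
    calc 2 * φ * |D i j| ≤ 2 * κ * 1 := by gcongr; exact (hD i j).trans (ha1.trans k1)
      _ = _ := by ring
  have hCκ : κ ≤ C * κ := le_mul_of_one_le_left hκ.le hC
  rw [abs_le]
  constructor <;>
    linarith [abs_le.1 (hD i j), abs_le.1 (hE i j), abs_le.1 (e1.trans e1'), abs_le.1 e2, abs_le.1 e3]

/-- The mixed part. -/
theorem mixed_error {h A : Matrix (Fin 6) (Fin 6) ℝ} {C a r : ℝ} (hr : 0 < r) (hC : 0 ≤ C)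
    (hG : ∀ i j l, |linkGamma h linkC i j l| ≤ C) (hA : ∀ i j, |A i j| ≤ 6 * (C * a)) (i : Fin 6) :
    |r⁻¹ * (-(1 / 2) * ∑ k, ∑ l, linkGamma h linkC k i l * A k l)| ≤ 108 * C ^ 2 * a / r := by
  rw [abs_mul, abs_mul, abs_inv, abs_of_pos hr]
  have : |∑ k, ∑ l, linkGamma h linkC k i l * A k l| ≤ 216 * (C ^ 2 * a) := by
    refine (Finset.abs_sum_le_sum_abs _ _).trans ((Finset.sum_le_sum fun k _ =>
      (Finset.abs_sum_le_sum_abs _ _).trans (Finset.sum_le_sum fun l _ =>
        show |linkGamma h linkC k i l * A k l| ≤ C * (6 * (C * a)) from ?_)).trans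
      (le_of_eq (by simp; ring)))
    rw [abs_mul]
    exact mul_le_mul (hG k i l) (hA k l) (abs_nonneg _) hC
  calc r⁻¹ * (|-(1 / 2 : ℝ)| * _) ≤ r⁻¹ * ((1 / 2) * (216 * (C ^ 2 * a))) := by
        rw [show |-(1 / 2 : ℝ)| = 1 / 2 by norm_num]
        gcongr
    _ = _ := by field_simp; ring

/-- A form in seven variables from its radial, mixed and link parts. -/
theorem form_nonneg {F : Fin 7 → Fin 7 → ℝ} {q b m : ℝ} (hq : 0 < q) (hm : 0 ≤ m)
    (hsym : ∀ i : Fin 6, F (lk i) 0 = F 0 (lk i)) (hb : b ^ 2 ≤ q * m)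
    (h1 : ∀ i : Fin 6, |F 0 (lk i)| ≤ b) (h0 : 6 * q ≤ F 0 0)
    (h2 : ∀ u : Fin 6 → ℝ, m * ∑ k, u k ^ 2 ≤ ∑ i, ∑ j, F (lk i) (lk j) * u i * u j)
    (w : Fin 7 → ℝ) : 0 ≤ ∑ a, ∑ c, F a c * w a * w c := by
  have h1' : ∀ i : Fin 6, -(q * w 0 ^ 2 + m * w i.succ ^ 2) ≤
      2 * (F 0 i.succ * w 0 * w i.succ) := by
    intro i
    have hx : F 0 i.succ ^ 2 ≤ q * m := by
      rw [← sq_abs]; exact (pow_le_pow_left₀ (abs_nonneg _) (h1 i) 2).trans hb
    have key := sq_nonneg (q * w 0 + F 0 i.succ * w i.succ)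
    have key2 := mul_le_mul_of_nonneg_right hx (sq_nonneg (w i.succ))
    nlinarith
  have h1s := Finset.sum_le_sum fun i (_ : i ∈ (Finset.univ : Finset (Fin 6))) => h1' i
  simp only [Finset.sum_neg_distrib, Finset.sum_add_distrib, ← Finset.mul_sum, Finset.sum_const,
    Finset.card_univ, Fintype.card_fin, nsmul_eq_mul] at h1s
  push_cast at h1s
  have hsw : ∑ i : Fin 6, F i.succ 0 * w i.succ * w 0 =
      ∑ i : Fin 6, F 0 i.succ * w 0 * w i.succ :=
    Finset.sum_congr rfl fun i _ => by rw [show F i.succ 0 = F 0 i.succ from hsym i]; ring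
  have h2' := h2 fun k => w k.succ
  simp only [lk] at h2'
  rw [Fin.sum_univ_succ]
  simp only [Fin.sum_univ_succ (n := 6), Finset.sum_add_distrib]
  rw [hsw]
  nlinarith [mul_le_mul_of_nonneg_right h0 (sq_nonneg (w 0))]

/-- Constants of a compact family of links with curvature above `5`. -/
theorem link_constants {K : Set (Matrix (Fin 6) (Fin 6) ℝ)} (hK : IsCompact K)
    (hKp : ∀ h ∈ K, h.PosDef) {δ : ℝ} (hδ : 0 < δ)
    (hKr : ∀ h ∈ K, ∀ w : Fin 6 → ℝ, (5 + δ) * ∑ i, ∑ j, h i j * w i * w j ≤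
      ∑ i, ∑ j, linkRicci h linkC i j * w i * w j) :
    ∃ d > (0 : ℝ), ∃ m > (0 : ℝ), ∃ C ≥ (1 : ℝ), ∀ h, (∃ h₀ ∈ K, ‖h - h₀‖ ≤ d) →
      (∀ w, m * ∑ k, w k ^ 2 ≤ linkGap h w) ∧ (∀ i j, |h i j| ≤ C) ∧ (∀ i j, |h⁻¹ i j| ≤ C) ∧
        ∀ i j l, |linkGamma h linkC i j l| ≤ C := by
  have hO : IsOpen {h : Matrix (Fin 6) (Fin 6) ℝ | h.det ≠ 0} :=
    isOpen_ne.preimage continuous_id.matrix_det
  have : ProperSpace (Matrix (Fin 6) (Fin 6) ℝ) := inferInstanceAs (ProperSpace (Fin 6 → Fin 6 → ℝ))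
  obtain ⟨η, hη, hKO⟩ := hK.exists_cthickening_subset_open hO
    fun h hh => (hKp h hh).det_pos.ne'
  set K' := Metric.cthickening η K with hK'
  have hK'c : IsCompact K' := hK.cthickening
  -- bounds
  set f := fun h : Matrix (Fin 6) (Fin 6) ℝ =>
    (‖h‖ + ∑ i, ∑ j, |h⁻¹ i j| + ∑ i, ∑ j, ∑ l, |linkGamma h linkC i j l|) with hf
  have hfc : ContinuousOn f K' := by
    refine ((continuous_norm.continuousOn).add ?_).add ?_
    · exact continuousOn_finsetSum _ fun i _ => continuousOn_finsetSum _ fun j _ =>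
        ((continuousOn_inv_entry i j).mono hKO).abs
    · exact continuousOn_finsetSum _ fun i _ => continuousOn_finsetSum _ fun j _ =>
        continuousOn_finsetSum _ fun l _ => ((continuousOn_linkGamma i j l).mono hKO).abs
  obtain ⟨C, hC⟩ := hK'c.bddAbove_image hfc
  -- the gap on the sphere
  set S := {w : Fin 6 → ℝ | ∑ k, w k ^ 2 = 1} with hS
  have hSc : IsCompact S := by
    refine (isCompact_closedBall (0 : Fin 6 → ℝ) 1).of_isClosed_subset
      (isClosed_eq (by fun_prop) continuous_const) fun w (hw : ∑ k, w k ^ 2 = 1) => ?_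
    rw [mem_closedBall_zero_iff, pi_norm_le_iff_of_nonneg zero_le_one]
    intro k
    rw [Real.norm_eq_abs, ← sq_le_one_iff_abs_le_one, ← hw]
    exact Finset.single_le_sum (fun l _ => sq_nonneg (w l)) (Finset.mem_univ k)
  have hKK' : K ⊆ K' := Metric.self_subset_cthickening K
  have hqc : ContinuousOn (fun z : Matrix (Fin 6) (Fin 6) ℝ × (Fin 6 → ℝ) => linkGap z.1 z.2)
      (K ×ˢ S) := by
    refine continuousOn_finsetSum _ fun i _ => continuousOn_finsetSum _ fun j _ => ?_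
    exact ((((continuousOn_linkGap_entry i j).mono (hKK'.trans hKO)).comp continuousOn_fst
      fun z hz => hz.1).mul ((continuous_apply i).comp continuous_snd).continuousOn).mul
      ((continuous_apply j).comp continuous_snd).continuousOn
  have hq : ∀ z ∈ K ×ˢ S, (0 : ℝ) < linkGap z.1 z.2 := by
    rintro ⟨h, w⟩ ⟨hh, hw⟩
    have hw0 : w ≠ 0 := fun e => by simp [hS, e] at hw
    have h1 := (hKp h hh).dotProduct_mulVec_pos hw0
    have h2 : star w ⬝ᵥ h *ᵥ w = ∑ i, ∑ j, h i j * w i * w j := by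
      simp only [dotProduct, Matrix.mulVec, star_trivial, Finset.mul_sum]
      exact Finset.sum_congr rfl fun i _ => Finset.sum_congr rfl fun j _ => by ring
    have h3 : linkGap h w = (∑ i, ∑ j, linkRicci h linkC i j * w i * w j) -
        5 * ∑ i, ∑ j, h i j * w i * w j := by
      simp only [linkGap, sub_mul, Finset.sum_sub_distrib, Finset.mul_sum, mul_assoc]
    have := hKr h hh w
    show 0 < linkGap h w
    rw [h3]
    nlinarith [h2, h1]
  obtain ⟨m, hm, hmin⟩ := (hK.prod hSc).exists_forall_le' hqc hq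
  have hlow : ∀ h ∈ K, ∀ w, m * ∑ k, w k ^ 2 ≤ linkGap h w := by
    intro h hh w
    rcases (Finset.sum_nonneg fun k _ => sq_nonneg (w k)).eq_or_lt with h0 | h0
    · have : w = 0 := funext fun k => by
        simpa using (Finset.sum_eq_zero_iff_of_nonneg fun l _ => sq_nonneg (w l)).1 h0.symm k
          (Finset.mem_univ k)
      simp [this, linkGap]
    · set c := Real.sqrt (∑ k, w k ^ 2) with hc
      have hc0 : 0 < c := Real.sqrt_pos.2 h0
      have hc2 : c ^ 2 = ∑ k, w k ^ 2 := Real.sq_sqrt h0.le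
      have h1 := hmin (h, c⁻¹ • w) ⟨hh, by
        simp only [hS, Set.mem_ofPred_eq, Pi.smul_apply, smul_eq_mul, mul_pow, ← Finset.mul_sum]
        rw [← hc2, inv_pow, inv_mul_cancel₀ (pow_ne_zero 2 hc0.ne')]⟩
      have h2 : linkGap h (c⁻¹ • w) = (c ^ 2)⁻¹ * linkGap h w := by
        simp only [linkGap, Finset.mul_sum, Pi.smul_apply, smul_eq_mul]
        exact Finset.sum_congr rfl fun i _ => Finset.sum_congr rfl fun j _ => by
          field_simp
      simp only at h1
      rw [h2, le_inv_mul_iff₀ (pow_pos hc0 2)] at h1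
      rw [← hc2]
      linarith
  -- uniform continuity
  set R := fun h : Matrix (Fin 6) (Fin 6) ℝ => fun i j => linkRicci h linkC i j - 5 * h i j
  have hR : ContinuousOn R K' :=
    continuousOn_pi.2 fun i => continuousOn_pi.2 fun j => (continuousOn_linkGap_entry i j).mono hKO
  obtain ⟨d₀, hd₀, hunif⟩ := Metric.uniformContinuousOn_iff.1
    (hK'c.uniformContinuousOn_of_continuous hR) (m / 72) (by positivity)
  refine ⟨min η (d₀ / 2), lt_min hη (by linarith), m / 2, by linarith, max C 1,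
    le_max_right _ _, ?_⟩
  rintro h ⟨h₀, hh₀, hdist⟩
  have hmem : h ∈ K' := Metric.mem_cthickening_of_dist_le h h₀ η K hh₀
    (by rw [dist_eq_norm]; exact hdist.trans (min_le_left _ _))
  have hfh : f h ≤ max C 1 := (hC ⟨h, hmem, rfl⟩).trans (le_max_left _ _)
  simp only [hf] at hfh
  have p1 := norm_nonneg h
  have p2 : ∀ i j, |h⁻¹ i j| ≤ ∑ a, ∑ b, |h⁻¹ a b| := fun i j =>
    (Finset.single_le_sum (f := fun b => |h⁻¹ i b|) (fun b _ => abs_nonneg _)
      (Finset.mem_univ j)).trans (Finset.single_le_sum (f := fun a => ∑ b, |h⁻¹ a b|)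
        (fun a _ => Finset.sum_nonneg fun b _ => abs_nonneg _) (Finset.mem_univ i))
  have p3 : ∀ i j l, |linkGamma h linkC i j l| ≤
      ∑ a, ∑ b, ∑ c, |linkGamma h linkC a b c| := fun i j l =>
    (Finset.single_le_sum (f := fun c => |linkGamma h linkC i j c|) (fun c _ => abs_nonneg _)
      (Finset.mem_univ l)).trans ((Finset.single_le_sum
        (f := fun b => ∑ c, |linkGamma h linkC i b c|)
        (fun b _ => Finset.sum_nonneg fun c _ => abs_nonneg _) (Finset.mem_univ j)).trans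
        (Finset.single_le_sum (f := fun a => ∑ b, ∑ c, |linkGamma h linkC a b c|)
          (fun a _ => Finset.sum_nonneg fun b _ => Finset.sum_nonneg fun c _ => abs_nonneg _)
          (Finset.mem_univ i)))
  have q2 : 0 ≤ ∑ a, ∑ b, |h⁻¹ a b| :=
    Finset.sum_nonneg fun a _ => Finset.sum_nonneg fun b _ => abs_nonneg _
  have q3 : 0 ≤ ∑ a, ∑ b, ∑ c, |linkGamma h linkC a b c| :=
    Finset.sum_nonneg fun a _ => Finset.sum_nonneg fun b _ => Finset.sum_nonneg fun c _ =>
      abs_nonneg _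
  refine ⟨fun w => ?_, fun i j => ?_, fun i j => by linarith [p2 i j],
    fun i j l => by linarith [p3 i j l]⟩
  · have he : ∀ i j, |R h i j - R h₀ i j| ≤ m / 72 := fun i j => by
      have hh' : dist h h₀ < d₀ := by
        rw [dist_eq_norm]; linarith [hdist.trans (min_le_right _ _)]
      have := (hunif h hmem h₀ (hKK' hh₀) hh').le
      exact ((dist_le_pi_dist (R h i) (R h₀ i) j).trans (dist_le_pi_dist (R h) (R h₀) i)).trans this
    have h1 := (abs_le.1 (quad_bound he w)).1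
    have h2 : ∑ i, ∑ j, (R h i j - R h₀ i j) * w i * w j = linkGap h w - linkGap h₀ w := by
      simp only [linkGap, R, sub_mul, Finset.sum_sub_distrib]
    have := hlow h₀ hh₀ w
    linarith
  · have := Matrix.norm_entry_le_entrywise_sup_norm h (i := i) (j := j)
    rw [Real.norm_eq_abs] at this
    linarith

end PathMetric

open PathMetric

/-- Uniform smallness that makes the Ricci tensor nonnegative: `L = tr (h⁻¹ h') / 2 = -φ`. -/
theorem end_ricci {K : Set (Matrix (Fin 6) (Fin 6) ℝ)} (hK : IsCompact K)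
    (hKp : ∀ h ∈ K, h.PosDef) {δ : ℝ} (hδ : 0 < δ)
    (hKr : ∀ h ∈ K, ∀ w : Fin 6 → ℝ, (5 + δ) * ∑ i, ∑ j, h i j * w i * w j ≤
      ∑ i, ∑ j, linkRicci h linkC i j * w i * w j) :
    ∃ κ > (0 : ℝ), ∀ (V : Set Pt) (g : MetricField) (E : Fin 7 → Pt → Pt) (r : Pt → ℝ)
      (h : ℝ → Matrix (Fin 6) (Fin 6) ℝ) (c7 : Fin 7 → Fin 7 → Fin 7 → ℝ) (φ : ℝ → ℝ),
      ContDiff ℝ ∞ φ → (∀ t i j, ContDiffAt ℝ ∞ (fun s => h s i j) t) →
      IsWarped V g E r (fun s => s ^ 2 • h (Real.log s)) linkC c7 →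
      ∀ v ∈ V, 0 < r v →
        let t := Real.log (r v)
        (∀ᶠ s in nhds t, ((h s)⁻¹ * mderiv h s).trace = -2 * φ s) →
        0 < φ t → φ t ≤ κ → -φ t / 2 ≤ deriv φ t →
        ‖mderiv h t‖ ^ 2 ≤ κ * φ t → ‖mderiv (mderiv h) t‖ ≤ κ →
        (∃ h₀ ∈ K, ‖h t - h₀‖ ≤ κ) →
        ∀ w : Fin 7 → ℝ, 0 ≤ ∑ a, ∑ b, frameRicci g E c7 a b v * w a * w b := by
  obtain ⟨d, hd, m, hm, C, hC, hconst⟩ := link_constants hK hKp hδ hKr
  have hC0 : 0 < C := by linarith
  refine ⟨min (min d 1) (min (1 / (1300 * C ^ 2)) (min (m / (4000 * C)) (m / (1200000 * C ^ 4)))),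
    by positivity, ?_⟩
  intro V g E r h c7 φ hφ hh W v hv hr t htr hφ0 hφκ hφ' hA hB hnear w
  set κ := min (min d 1) (min (1 / (1300 * C ^ 2)) (min (m / (4000 * C)) (m / (1200000 * C ^ 4))))
    with hκ
  have hκ0 : 0 < κ := by positivity
  have k1 : κ ≤ 1 := (min_le_left _ _).trans (min_le_right _ _)
  have k2 : κ * (1300 * C ^ 2) ≤ 1 :=
    (le_div_iff₀ (by positivity)).1 ((min_le_right _ _).trans (min_le_left _ _))
  have k3 : κ * (4000 * C) ≤ m :=
    (le_div_iff₀ (by positivity)).1 ((min_le_right _ _).trans ((min_le_right _ _).trans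
      (min_le_left _ _)))
  have k4 : κ * (1200000 * C ^ 4) ≤ m :=
    (le_div_iff₀ (by positivity)).1 ((min_le_right _ _).trans ((min_le_right _ _).trans
      (min_le_right _ _)))
  have hsm : ∀ i j, ContDiff ℝ ∞ fun s => h s i j := fun i j =>
    contDiff_iff_contDiffAt.2 fun s => hh s i j
  obtain ⟨h₀, hh₀, hd₀⟩ := hnear
  obtain ⟨hgap, hbh, hbN, hbG⟩ := hconst (h t)
    ⟨h₀, hh₀, hd₀.trans ((min_le_left _ _).trans (min_le_left _ _))⟩
  have hdet : (h t).det ≠ 0 := fun e => W.det_ne hv (by simp [t, e] at *)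
  obtain ⟨f0, f1, f2⟩ := warp_ricci hsm W hv hr
  set N := (h t)⁻¹
  set A := N * mderiv h t with hA'
  set a := ‖mderiv h t‖ with ha
  have ha0 : 0 ≤ a := norm_nonneg _
  have ha1 : a ≤ κ := by
    have : a ^ 2 ≤ κ ^ 2 := hA.trans (by nlinarith)
    exact (pow_le_pow_iff_left₀ ha0 hκ0.le two_ne_zero).1 this
  have hD1 : ∀ i j, |mderiv h t i j| ≤ a := fun i j => by
    simpa using Matrix.norm_entry_le_entrywise_sup_norm (mderiv h t) (i := i) (j := j)
  have hD2 : ∀ i j, |mderiv (mderiv h) t i j| ≤ κ := fun i j => by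
    simpa using (Matrix.norm_entry_le_entrywise_sup_norm (mderiv (mderiv h) t)
      (i := i) (j := j)).trans hB
  have hAe : ∀ i j, |A i j| ≤ 6 * (C * a) := abs_mul_entry hbN hD1
  -- the two trace identities
  have htA : A.trace = -2 * φ t := htr.self_of_nhds
  have htB : (N * mderiv (mderiv h) t).trace - (A * A).trace = -2 * deriv φ t :=
    (hasDerivAt_trace hsm hdet).unique
      ((((hφ.differentiable (by simp)) t).hasDerivAt.const_mul (-2)).congr_of_eventuallyEq htr)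
  have hAA : |(A * A).trace| ≤ 1296 * C ^ 2 * a ^ 2 :=
    (abs_trace_le fun i => abs_mul_entry hAe hAe i i).trans (le_of_eq (by ring))
  -- radial
  have R0 : φ t / (4 * r v ^ 2) ≤ frameRicci g E c7 0 0 v := by
    rw [f0, htA, show (N * mderiv (mderiv h) t).trace = (A * A).trace - 2 * deriv φ t by linarith]
    have h1 : φ t / 4 ≤ -(1 / 2) * (-2 * φ t) - 1 / 2 * ((A * A).trace - 2 * deriv φ t) +
        1 / 4 * (A * A).trace := by
      nlinarith [(abs_le.1 hAA).2, mul_le_mul_of_nonneg_left hA (show (0 : ℝ) ≤ C ^ 2 by positivity),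
        mul_le_mul_of_nonneg_right k2 hφ0.le]
    calc φ t / (4 * r v ^ 2) = (r v ^ 2)⁻¹ * (φ t / 4) := by field_simp
      _ ≤ _ := by gcongr
  -- mixed
  set b := 108 * C ^ 2 * a / r v with hb
  have R1 : ∀ i, |frameRicci g E c7 0 (lk i) v| ≤ b := fun i => by
    rw [f1 i, hb]
    exact mixed_error hr hC0.le hbG hAe i
  -- link
  have R2 : ∀ u : Fin 6 → ℝ, (3 * m / 4) * ∑ k, u k ^ 2 ≤
      ∑ i, ∑ j, frameRicci g E c7 (lk i) (lk j) v * u i * u j := by
    intro u
    set S := ∑ k, u k ^ 2 with hS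
    simp only [f2]
    have hee := link_error hC hκ0 k1 ha0 ha1 hD1 hD2 hbN hbh htA hφ0 hφκ
    have h1 := (abs_le.1 (quad_bound hee u)).1
    have h2 := hgap u
    simp only [linkGap] at h2
    simp only [add_mul, Finset.sum_add_distrib]
    have hS0 : 0 ≤ S := Finset.sum_nonneg fun k _ => sq_nonneg _
    have h3 : 36 * (26 * C * κ) * S ≤ m / 4 * S := by
      refine mul_le_mul_of_nonneg_right ?_ hS0
      linarith
    linarith
  -- assembly
  refine form_nonneg (q := φ t / (24 * r v ^ 2)) (b := b) (m := m / 4) (by positivity)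
    (by positivity) (fun i => frameRicci_symm W hv i) ?_ R1 ?_ ?_ w
  · rw [hb, div_pow, div_mul_div_comm, div_le_div_iff₀ (by positivity) (by positivity)]
    nlinarith [mul_le_mul_of_nonneg_left hA (show (0 : ℝ) ≤ C ^ 4 by positivity),
      mul_le_mul_of_nonneg_right k4 hφ0.le, pow_pos hr 2]
  · exact le_trans (le_of_eq (by field_simp; ring)) R0
  · intro u
    have := mul_nonneg hm.le (Finset.sum_nonneg fun k (_ : k ∈ Finset.univ) => sq_nonneg (u k))
    linarith [R2 u]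

end Vale.Agent.P225
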