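import Vale.Agent.P225.Path.Defs
import Vale.Agent.P225.Defs
import Vale.Agent.P225.Path.Metric.Local
import Vale.Agent.P225.Path.Metric.Choice

/-!
P225, module B: properties of the parametrised metric used by the other modules.
-/

noncomputable section

namespace Vale.Agent.P225

open Matrix Real
open scoped ContDiff

/-- Schedule conditions: periodic, nonempty clusters. -/
structure IsPlan (period : ℕ) (plan : ℕ → List StagePlan) : Prop where
  period_pos : 0 < period
  periodic : ∀ j, plan (j + period) = plan j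
  nonempty : ∀ j, plan j ≠ []

/-- What the analysis uses of the scale and of the path before the first cluster. -/
structure PathData.Good (d : PathData) (r₂ β φ₀ : ℝ) : Prop where
  isPlan : IsPlan d.period d.plan
  j₀_pos : 1 ≤ d.j₀
  r₂_pos : 0 < r₂
  β_pos : 0 < β
  φ₀_pos : 0 < φ₀
  /-- The drop is fixed independently of the first cluster. -/
  φ₀_le : φ₀ ≤ (d.j₀ : ℝ)
  scale_smooth : ContDiff ℝ ∞ d.scale
  scale_pos : ∀ t, 0 < d.scale t
  scale_mem : ∀ t, (d.j₀ : ℝ) ^ 6 - 1 ≤ t → d.scale t ∈ Set.Icc (67 / 10 : ℝ) (27 / 4)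
  scale_mono : Monotone d.scale
  /-- The drop of the volume: `ν = 5 - φ` with `φ = φ₀ (1 + t)^(-6/5)`. -/
  scale_deriv : ∀ t, (d.j₀ : ℝ) ^ 6 - 1 ≤ t →
    deriv d.scale t = d.scale t * (φ₀ * (1 + t) ^ (-(6 / 5) : ℝ)) / 3
  nu_mem : ∀ t, (d.j₀ : ℝ) ^ 6 - 1 ≤ t → pathNu d t ∈ Set.Icc (49 / 10 : ℝ) 5
  pre_smooth : ∀ k, ContDiff ℝ ∞ fun t => d.pre t k
  pre_nonneg : ∀ t k, 0 ≤ d.pre t k
  pre_pos : ∀ t, 0 < d.pre t 1 ∧ 0 < d.pre t 2
  /-- The normal point just before the first cluster. -/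
  pre_end : ∀ t, (d.j₀ : ℝ) ^ 6 - 1 ≤ t → ∀ k, d.pre t k = d.scale t
  /-- The flat core: `a = r`, `b² = β`. -/
  pre_core : ∀ t, t < Real.log r₂ →
    d.pre t = ![0, 4, 4 * Real.exp (2 * t) / β]
  pre_late : Real.log r₂ < (d.j₀ : ℝ) ^ 6 - 1
  /-- The limit is fixed in advance, so the control words can be chosen before `j₀`. -/
  scale_lim : Filter.Tendsto d.scale Filter.atTop (nhds (27 / 4))
  /-- The controls are small enough. -/
  pathQ_pos : ∀ p : Param, InBox d p → ∀ t, (pathQ d p t).PosDef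
  box_nonneg : 0 ≤ d.box

/-- For `j₀` large there are a scale and an initial path such that, for all parameters in the box,
the metric is complete with nonnegative Ricci curvature and grows at least like `dr²`. -/
theorem exists_path_metric (period : ℕ) (plan : ℕ → List StagePlan) (hp : IsPlan period plan)
    (box : ℝ) (hbox : 0 ≤ box) :
    ∃ j₁ : ℕ, ∀ j₀ ≥ j₁, ∃ (scale : ℝ → ℝ) (pre : ℝ → Fin 3 → ℝ) (r₂ β φ₀ : ℝ),
      (⟨period, plan, j₀, box, scale, pre⟩ : PathData).Good r₂ β φ₀ ∧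
      ∀ p : Param, InBox ⟨period, plan, j₀, box, scale, pre⟩ p →
        IsRicNonnegComplete chartU (pathMetric ⟨period, plan, j₀, box, scale, pre⟩ p r₂ β) ∧
        ∀ o ∈ chartU, ∀ v ∈ chartU,
          rad v - rad o ≤ rdist chartU (pathMetric ⟨period, plan, j₀, box, scale, pre⟩ p r₂ β) o v := by
  obtain ⟨j₁, hj₁⟩ := PathMetric.exists_setup period plan hp.period_pos hp.periodic box hbox
  refine ⟨j₁, fun j₀ hj₀ => ?_⟩
  obtain ⟨α, β, b₀, r₁, κ, κ₀, T, L, φ₀, P, φ, ea, eb, h, hu, hφ⟩ := hj₁ j₀ hj₀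
  refine ⟨P, PathMetric.preFun (Real.log (β / α)) L P ea eb, r₁ * Real.exp (-1), b₀ ^ 2, φ₀, ?_,
    fun p hp => h.global hu hp⟩
  have hL := h.L_pos
  have hlate := h.late
  have hT := h.late_T
  simp only at hlate hT
  have hlog : Real.log (r₁ * Real.exp (-1)) = Real.log r₁ - 1 := by
    rw [Real.log_mul h.r₁_pos.ne' (Real.exp_pos _).ne', Real.log_exp]; ring
  have hphi : ∀ t, (j₀ : ℝ) ^ 6 - 1 ≤ t → φ t = φ₀ * (1 + t) ^ (-(6 / 5) : ℝ) := fun t ht =>
    h.prof.exact t (by linarith)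
  refine
    { isPlan := hp
      j₀_pos := h.j₀_pos
      r₂_pos := mul_pos h.r₁_pos (Real.exp_pos _)
      β_pos := pow_pos h.b₀_pos 2
      φ₀_pos := h.prof.φ₀_pos
      φ₀_le := hφ
      scale_smooth := h.prof.smoothP
      scale_pos := h.P_pos
      scale_mem := fun t ht =>
        ⟨h.rise_ge.trans (h.prof.mono (by linarith)), (h.prof.mem t).2⟩
      scale_mono := h.prof.mono
      scale_deriv := fun t ht => by
        show deriv P t = P t * _ / 3
        rw [(h.prof.scale t).deriv, hphi t ht]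
      nu_mem := fun t ht => ?_
      pre_smooth := fun k =>
        PathMetric.preFun_smooth h.prof.smoothP h.prof.smoothA h.prof.smoothB _ L k
      pre_nonneg := fun t k => PathMetric.preFun_nonneg (h.P_pos t) k
      pre_pos := fun t => PathMetric.preFun_pos (h.P_pos t)
      pre_end := fun t ht k => ?_
      pre_core := fun t ht => ?_
      pre_late := by
        show Real.log (r₁ * Real.exp (-1)) < (j₀ : ℝ) ^ 6 - 1
        linarith [h.prof.core_lt]
      scale_lim := h.prof.lim
      pathQ_pos := fun p hp t => h.pathQ_pos hp t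
      box_nonneg := hbox }
  · simp only [pathNu, (h.prof.scale t).deriv]
    have hP := h.P_pos t
    obtain ⟨h1, h2⟩ := h.prof.small t (by linarith)
    have hk := h.κ₀_le.2
    rw [show 3 * (P t * φ t / 3) / P t = φ t by field_simp]
    exact ⟨by linarith, by linarith⟩
  · obtain ⟨za, zb⟩ := h.prof.settled t (by linarith)
    exact PathMetric.preFun_end (by linarith) (by linarith) za zb k
  · rw [hlog] at ht
    obtain ⟨c1, c2, c3⟩ := h.prof.core t (by linarith)
    exact PathMetric.preFun_core h.α_pos h.β_pos h.b₀_pos (by linarith)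
      (by linarith [h.prof.core_lt, h.L_ge]) c1 c2 c3

variable {d : PathData} {r₂ β φ₀ : ℝ}

/-- The cluster start times are increasing and grow like `j⁶`. -/
theorem clusterStart_bounds (hd : d.Good r₂ β φ₀) :
    StrictMono (clusterStart d) ∧ ∃ C : ℝ, 0 < C ∧ ∀ i : ℕ,
      C⁻¹ * ((d.j₀ + i : ℕ) : ℝ) ^ 6 ≤ clusterStart d i ∧
        clusterStart d i ≤ C * ((d.j₀ + i : ℕ) : ℝ) ^ 6 := by
  exact ⟨Sched.clusterStart_mono hd.j₀_pos,
    Sched.clusterStart_growth hd.j₀_pos hd.isPlan.period_pos hd.isPlan.periodic⟩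

/-- Inside a stage the definitions unfold to the stage formula. -/
theorem pathQ_inStage (hd : d.Good r₂ β φ₀) {t : ℝ} {i l : ℕ}
    (hl : l < (d.plan (d.j₀ + i)).length)
    (h : t ∈ Set.Ico (stageStart d i l) (stageStart d i (l + 1))) (p : Param) :
    pathGauge d t = ((d.plan (d.j₀ + i))[l]).gauge ∧
      pathQ d p t = stageQ ((d.plan (d.j₀ + i))[l]) (speed (d.j₀ + i)) (d.scale t) (p i l)
        (speed (d.j₀ + i) * (t - stageStart d i l)) := by
  exact ⟨Sched.pathGauge_of_inStage hd.j₀_pos ⟨hl, h.1, h.2⟩,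
    Sched.pathQ_of_inStage hd.j₀_pos ⟨hl, h.1, h.2⟩ p⟩

/-- Between clusters the link is at the normal point, before the first one it follows `pre`. -/
theorem pathQ_outside (hd : d.Good r₂ β φ₀) {t : ℝ} (p : Param)
    (h : ∀ il, ¬ InStage d t il) :
    pathGauge d t = 0 ∧
      pathQ d p t =
        if (d.j₀ : ℝ) ^ 6 ≤ t then SU2.adQ 0 (fun _ => d.scale t) else SU2.adQ 0 (d.pre t) := by
  have hn : ¬ ∃ il, InStage d t il := fun ⟨il, hil⟩ => h il hil
  exact ⟨dif_neg hn, dif_neg hn⟩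

/-- Near every time after the core the metric is a gauge metric in one gauge. -/
theorem exists_localGauge (hd : d.Good r₂ β φ₀) {p : Param} (hp : InBox d p) (t : ℝ) :
    Nonempty (Sched.LocalGauge d p r₂ β t) := by
  have hj := hd.j₀_pos
  set J := (d.j₀ : ℝ) ^ 6
  have hlate := hd.pre_late
  by_cases hint : ∃ i l, ∃ h : l < (d.plan (d.j₀ + i)).length,
      stageStart d i l < t ∧ t < stageStart d i (l + 1)
  · obtain ⟨i, l, hl, h1, h2⟩ := hint
    have hin : ∀ s ∈ Set.Ioo (stageStart d i l) (stageStart d i (l + 1)), InStage d s (i, l) :=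
      fun s hs => ⟨hl, hs.1.le, hs.2⟩
    have hq : ∀ s ∈ Set.Ioo (stageStart d i l) (stageStart d i (l + 1)), pathQ d p s =
        stageQ ((d.plan (d.j₀ + i))[l]) (speed (d.j₀ + i)) (d.scale s) (p i l)
          (speed (d.j₀ + i) * (s - stageStart d i l)) :=
      fun s hs => Sched.pathQ_of_inStage hj (hin s hs) p
    refine ⟨Sched.localGauge_stage (U := Set.Ioo (stageStart d i l) (stageStart d i (l + 1)))
      (Ioo_mem_nhds h1 h2) isOpen_Ioo _ _ _ _ hd.scale_smooth hd.scale_pos
      (fun s hs => Sched.pathGauge_of_inStage hj (hin s hs)) hq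
      (fun s _ => hd.pathQ_pos p hp s) fun v hs hlt => ?_⟩
    have hge := Sched.inStage_ge hj (hin _ hs)
    rcases le_or_gt (rad v) 0 with h0 | h0
    · have : rad v = 0 := le_antisymm h0 (Real.sqrt_nonneg _)
      rw [this, Real.log_zero] at hge
      have : (1 : ℝ) ≤ J := one_le_pow₀ (by exact_mod_cast hj)
      linarith
    · have := Real.log_lt_log h0 hlt
      linarith
  by_cases hpre : t ≤ J - 1
  · have hns : ∀ s ∈ Set.Iio (t + 1 / 2), ¬ ∃ il, InStage d s il := fun s hs ⟨il, hil⟩ => by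
      have := Sched.inStage_ge hj hil
      simp only [Set.mem_Iio] at hs
      linarith
    refine ⟨Sched.localGauge_adQ (U := Set.Iio (t + 1 / 2)) (Iio_mem_nhds (by linarith)) isOpen_Iio
      d.pre hd.pre_smooth (fun s _ => hd.pre_nonneg s) (fun s _ => hd.pre_pos s)
      (fun s hs => ?_) fun v hv hr hs hlt => ?_⟩
    · rw [show pathGauge d s = 0 from dif_neg (hns s hs),
        show pathQ d p s = _ from dif_neg (hns s hs), if_neg]
      simp only [Set.mem_Iio] at hs
      intro hJ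
      linarith
    · refine (Sched.gaugeMetric_eq_core hd.β_pos hv hr ?_).symm
      simp only [hd.pre_core _ (Real.log_lt_log hr hlt)]
      rw [show Real.exp (2 * Real.log (rad v)) = rad v ^ 2 by
        rw [two_mul, Real.exp_add, Real.exp_log hr, sq]]
  rw [not_le] at hpre
  obtain ⟨δ, hδ⟩ : ∃ δ, δ = min (1 / 4) (t - (J - 1)) := ⟨_, rfl⟩
  have hδ0 : 0 < δ := hδ ▸ lt_min (by norm_num) (by linarith)
  have hδ4 : δ ≤ 1 / 4 := hδ ▸ min_le_left _ _
  have hδJ : δ ≤ t - (J - 1) := hδ ▸ min_le_right _ _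
  refine ⟨Sched.localGauge_adQ (U := Set.Ioo (t - δ) (t + δ))
    (Ioo_mem_nhds (by linarith) (by linarith)) isOpen_Ioo (fun u _ => d.scale u)
    (fun _ => hd.scale_smooth) (fun s _ _ => (hd.scale_pos s).le)
    (fun s _ => ⟨hd.scale_pos s, hd.scale_pos s⟩) (fun s hs => ?_) fun v hv hr hs hlt => ?_⟩
  · obtain ⟨hs1, hs2⟩ := hs
    by_cases hst : ∃ il, InStage d s il
    · obtain ⟨⟨i, l⟩, hil⟩ := hst
      rw [Sched.pathGauge_of_inStage hj hil, Sched.pathQ_of_inStage hj hil p]
      refine Sched.stageQ_normal _ _ (hd.scale_pos s) _ ?_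
      have hε : speed (d.j₀ + i) ≤ 1 := Sched.speed_le_one _
      have hε0 : 0 < speed (d.j₀ + i) := Sched.speed_pos (by omega)
      obtain ⟨hl, ha, hb⟩ := hil
      simp only at hl ha hb
      by_cases hA : stageStart d i l < t
      · have hB : stageStart d i (l + 1) ≤ t := by
          by_contra hB
          exact hint ⟨i, l, hl, hA, not_le.1 hB⟩
        rw [Sched.stageStart_succ i hl] at hB hb
        refine Or.inr ?_
        have h1 : ((d.plan (d.j₀ + i))[l]).dur / speed (d.j₀ + i) - (s - stageStart d i l) < 1 / 4 :=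
          by linarith
        have h2 := mul_lt_mul_of_pos_left h1 hε0
        rw [mul_sub, mul_div_cancel₀ _ hε0.ne'] at h2
        linarith
      · refine Or.inl ?_
        have h1 : s - stageStart d i l < 1 / 4 := by linarith
        have h2 := mul_lt_mul_of_pos_left h1 hε0
        linarith
    · rw [show pathGauge d s = 0 from dif_neg hst, show pathQ d p s = _ from dif_neg hst]
      split_ifs
      · rfl
      · rw [funext (hd.pre_end s (by linarith))]
  · exfalso
    have := Real.log_lt_log hr hlt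
    linarith [hs.1]

/-- The equation `c'' + ν c' = A c` in `t` is the equation of the Laplacian in `r = eᵗ`: local
solutions in the sense of the series module. -/
theorem localSolution_of_ode (hd : d.Good r₂ β φ₀) {p : Param} (hp : InBox d p)
    {f : SU2.Pnt → ℝ → ℂ} (hf : ∀ x, ContDiff ℝ ∞ (f x)) {t : ℝ}
    {ν : ℝ → ℝ} (hν : ∀ s, ν s = 5 + deriv (fun u => Real.log ((toLink (pathQ d p u))⁻¹).det) s / 2)
    (hode : ∀ᶠ s in nhds t, ∀ x,
      deriv (deriv (f x)) s + (ν s : ℂ) * deriv (f x) s =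
        rowSum (pathGauge d s) (pathOp d p s) (fun y => f y s) x) :
    LocalSolution (pathMetric d p r₂ β) (fun x r => f x (Real.log r)) (Real.exp t) := by
  obtain ⟨L⟩ := exists_localGauge hd hp t
  set Lm : ℝ → Matrix (Fin 6) (Fin 6) ℝ := fun u => (toLink (L.Q u))⁻¹ with hLm
  have hexp : 0 < Real.exp t := Real.exp_pos t
  have hlog : ∀ᶠ r in nhds (Real.exp t), 0 < r ∧ Real.log r ∈ interior L.U ∧
      ∀ x, deriv (deriv (f x)) (Real.log r) + (ν (Real.log r) : ℂ) * deriv (f x) (Real.log r) =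
        rowSum (pathGauge d (Real.log r)) (pathOp d p (Real.log r))
          (fun y => f y (Real.log r)) x := by
    have hc : Filter.Tendsto Real.log (nhds (Real.exp t)) (nhds t) := by
      simpa using (Real.continuousAt_log hexp.ne').tendsto
    filter_upwards [eventually_gt_nhds hexp,
      hc.eventually (isOpen_interior.eventually_mem (mem_interior_iff_mem_nhds.2 L.U_nhds)),
      hc.eventually hode] with r h1 h2 h3 using ⟨h1, h2, h3⟩
  obtain ⟨ε, hε, hball⟩ := Metric.eventually_nhds_iff.1 hlog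
  have hI : ∀ r ∈ Set.Ioo (Real.exp t - ε) (Real.exp t + ε), _ := fun r hr =>
    hball (show dist r (Real.exp t) < ε by
      rw [Real.dist_eq, abs_lt]; constructor <;> linarith [hr.1, hr.2])
  have hU : ∀ r ∈ Set.Ioo (Real.exp t - ε) (Real.exp t + ε), Real.log r ∈ L.U := fun r hr =>
    interior_subset (hI r hr).2.1
  have hdetQ : ∀ s ∈ L.U, (toLink (L.Q s)).det ≠ 0 := fun s hs =>
    (Sched.toLink_posDef (L.pos s hs)).det_pos.ne'
  have hLsm : ∀ s ∈ L.U, ∀ i j, ContDiffAt ℝ ∞ (fun u => Lm u i j) s := fun s hs i j =>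
    Sched.contDiffAt_inv (M := fun u => toLink (L.Q u)) (fun a b => L.smooth s hs _ _)
      (hdetQ s hs) i j
  have hMsm : ∀ r ∈ Set.Ioo (Real.exp t - ε) (Real.exp t + ε), ∀ i j,
      ContDiffAt ℝ ∞ (fun u => (u ^ 2 • Lm (Real.log u)) i j) r := fun r hr i j => by
    have hr0 := (hI r hr).1
    simp only [Matrix.smul_apply, smul_eq_mul]
    exact (contDiffAt_id.pow 2).mul ((hLsm _ (hU r hr) i j).comp r
      (Real.contDiffAt_log.2 hr0.ne'))
  have hMpos : ∀ r ∈ Set.Ioo (Real.exp t - ε) (Real.exp t + ε),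
      (r ^ 2 • Lm (Real.log r)).PosDef := fun r hr =>
    (Sched.toLink_posDef (L.pos _ (hU r hr))).inv.smul (pow_pos (hI r hr).1 2)
  refine ⟨L.G, fun r => r ^ 2 • Lm (Real.log r), ε, hε, fun r hr => ⟨hMpos r hr, hMsm r hr⟩,
    fun r => ?_, fun v hv hr => L.metric_eq v hv (hI _ hr).1 (hU _ hr), fun x r hr => ?_⟩
  · refine Matrix.IsSymm.smul ?_ _
    have : (toLink (L.Q (Real.log r))).IsSymm :=
      Matrix.IsSymm.ext fun i j => (L.symm _).apply _ _
    rw [hLm, Matrix.IsSymm, Matrix.transpose_nonsing_inv, this.eq]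
  obtain ⟨hr0, hs, hode'⟩ := hI r hr
  have hsU := interior_subset hs
  set s := Real.log r with hsdef
  have hfd : ∀ u, DifferentiableAt ℝ (f x) u := fun u =>
    ((hf x).differentiable (by simp)).differentiableAt
  have hfd' : DifferentiableAt ℝ (deriv (f x)) s :=
    (((contDiff_infty_iff_deriv.1 (hf x)).2).differentiable (by simp)).differentiableAt
  have hd1 : ∀ u, 0 < u → HasDerivAt (fun w => f x (Real.log w))
      ((u⁻¹ : ℝ) • deriv (f x) (Real.log u)) u := fun u hu =>
    (hfd _).hasDerivAt.scomp u (Real.hasDerivAt_log hu.ne')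
  have hev : deriv (fun w => f x (Real.log w)) =ᶠ[nhds r]
      fun u => (u⁻¹ : ℝ) • deriv (f x) (Real.log u) := by
    filter_upwards [eventually_gt_nhds hr0] with u hu using (hd1 u hu).deriv
  have hd2 : deriv (deriv fun w => f x (Real.log w)) r =
      (r⁻¹ : ℝ) • ((r⁻¹ : ℝ) • deriv (deriv (f x)) s) + (-(r ^ 2)⁻¹ : ℝ) • deriv (f x) s := by
    rw [hev.deriv_eq]
    exact ((hasDerivAt_inv hr0.ne').smul
      (hfd'.hasDerivAt.scomp r (Real.hasDerivAt_log hr0.ne'))).deriv
  have hdetL : (Lm s).det ≠ 0 := by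
    simp only [hLm, Matrix.det_nonsing_inv, Ring.inverse_eq_inv']
    exact inv_ne_zero (hdetQ s hsU)
  have hdiffL : DifferentiableAt ℝ (fun u => (Lm u).det) s :=
    (Sched.contDiffAt_det (hLsm s hsU)).differentiableAt (by simp)
  have hνs : ν s = 5 + deriv (fun u => (Lm u).det) s / (Lm s).det / 2 := by
    rw [hν s]
    have e : (fun u => Real.log ((toLink (pathQ d p u))⁻¹).det) =ᶠ[nhds s]
        fun u => Real.log (Lm u).det := by
      filter_upwards [mem_interior_iff_mem_nhds.1 hs] with u hu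
      rw [hLm, Matrix.det_nonsing_inv, Matrix.det_nonsing_inv, L.det_eq u hu]
    rw [e.deriv_eq, deriv.log hdiffL hdetL]
  have htr : (1 / 2 * ((r ^ 2 • Lm s)⁻¹ *
      mderiv (fun u => u ^ 2 • Lm (Real.log u)) r).trace : ℝ) = (1 + ν s) / r := by
    have h1 := Sched.trace_inv_mul_eq (M := fun u => u ^ 2 • Lm (Real.log u)) (t := r)
      (fun i j => (hMsm r hr i j).differentiableAt (by simp)) (hMpos r hr).det_pos.ne'
    have h2 : HasDerivAt (fun u => (u ^ 2) ^ 6 * (Lm (Real.log u)).det)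
        (((6 : ℕ) : ℝ) * (r ^ 2) ^ 5 * (((2 : ℕ) : ℝ) * r ^ 1) * (Lm s).det +
          (r ^ 2) ^ 6 * (deriv (fun u => (Lm u).det) s * r⁻¹)) r :=
      ((hasDerivAt_pow 2 r).pow 6).mul
        (HasDerivAt.comp r (h₂ := fun u => (Lm u).det) hdiffL.hasDerivAt
          (Real.hasDerivAt_log hr0.ne'))
    have h3 : (fun u => (u ^ 2 • Lm (Real.log u)).det) =
        fun u => (u ^ 2) ^ 6 * (Lm (Real.log u)).det := by
      funext u; rw [Matrix.det_smul, Fintype.card_fin]
    rw [h3, h2.deriv, Matrix.det_smul, Fintype.card_fin, ← hsdef] at h1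
    rw [show mderiv (fun u => u ^ 2 • Lm (Real.log u)) r =
      Matrix.of fun i j => deriv (fun u => (u ^ 2 • Lm (Real.log u)) i j) r from rfl, h1, hνs]
    field_simp
    ring
  have hlinkQ : linkQ (r ^ 2 • Lm s) = (r ^ 2)⁻¹ • L.Q s :=
    Sched.linkQ_smul_inv (L.pos s hsU) (pow_ne_zero 2 hr0.ne')
  have h := (hode' x).trans (L.row_eq s hsU _ x)
  have hrC : (r : ℂ) ≠ 0 := Complex.ofReal_ne_zero.2 hr0.ne'
  simp only [← hsdef]
  rw [htr, hd2, (hd1 r hr0).deriv, hlinkQ, Sched.rowSum_smul, ← h]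
  simp only [Complex.real_smul]
  push_cast
  field_simp
  ring

end Vale.Agent.P225
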